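import Mathlib

namespace Vale.Agent.Lib.P013

open Finset

/-- If an integer is not coprime to a positive natural number, a prime factor of the latter divides it. -/
theorem exists_prime_dvd_of_not_isCoprime (z : ℤ) (b : ℕ) (hb : 0 < b)
    (h : ¬ IsCoprime z (b : ℤ)) : ∃ p ∈ b.primeFactors, (p : ℤ) ∣ z := by
  rw [Int.isCoprime_iff_gcd_eq_one] at h
  obtain ⟨p, hp, hpd⟩ := Nat.exists_prime_and_dvd h
  have h1 : p ∣ z.natAbs := by
    have : p ∣ Nat.gcd z.natAbs b := by simpa [Int.gcd] using hpd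
    exact dvd_trans this (Nat.gcd_dvd_left _ _)
  have h2 : p ∣ b := by
    have : p ∣ Nat.gcd z.natAbs b := by simpa [Int.gcd] using hpd
    exact dvd_trans this (Nat.gcd_dvd_right _ _)
  refine ⟨p, ?_, ?_⟩
  · exact Nat.mem_primeFactors.mpr ⟨hp, h2, hb.ne'⟩
  · exact Int.natCast_dvd.mpr h1

/-- Among `m` consecutive integers at most `(m - 1) / p + 1` are divisible by `p`. -/
theorem card_multiples_le (y : ℤ) (m p : ℕ) :
    ((Finset.range m).filter (fun t : ℕ => (p : ℤ) ∣ y + (t : ℤ))).card ≤ (m - 1) / p + 1 := by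
  classical
  have hinj : Set.InjOn (fun t : ℕ => t / p)
      ((Finset.range m).filter (fun t : ℕ => (p : ℤ) ∣ y + (t : ℤ)) : Set ℕ) := by
    intro t ht t' ht' hEq
    rw [Finset.mem_coe, Finset.mem_filter, Finset.mem_range] at ht ht'
    have hd : (p : ℤ) ∣ (t : ℤ) - (t' : ℤ) := by
      have := dvd_sub ht.2 ht'.2
      simpa using this
    have hmod : t % p = t' % p := by
      have h3 : (t : ℤ) ≡ (t' : ℤ) [ZMOD (p : ℤ)] := by
        exact Int.modEq_iff_dvd.mpr (by
          have : (p : ℤ) ∣ (t' : ℤ) - (t : ℤ) := by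
            have := dvd_neg.mpr hd
            simpa using this
          exact this)
      have h4 : t ≡ t' [MOD p] := Int.natCast_modEq_iff.mp h3
      exact h4
    have hdiv : t / p = t' / p := hEq
    calc t = p * (t / p) + t % p := (Nat.div_add_mod t p).symm
      _ = p * (t' / p) + t' % p := by rw [hdiv, hmod]
      _ = t' := Nat.div_add_mod t' p
  have himg : ((Finset.range m).filter (fun t : ℕ => (p : ℤ) ∣ y + (t : ℤ))).image (fun t : ℕ => t / p)
      ⊆ Finset.range ((m - 1) / p + 1) := by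
    intro q hq
    simp only [Finset.mem_image, Finset.mem_filter, Finset.mem_range] at hq
    obtain ⟨t, ⟨ht, _⟩, rfl⟩ := hq
    simp only [Finset.mem_range]
    have : t / p ≤ (m - 1) / p := Nat.div_le_div_right (by omega)
    omega
  calc ((Finset.range m).filter (fun t : ℕ => (p : ℤ) ∣ y + (t : ℤ))).card
      = (((Finset.range m).filter (fun t : ℕ => (p : ℤ) ∣ y + (t : ℤ))).image (fun t : ℕ => t / p)).card :=
        (Finset.card_image_of_injOn hinj).symm
    _ ≤ (Finset.range ((m - 1) / p + 1)).card := Finset.card_le_card himg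
    _ = (m - 1) / p + 1 := Finset.card_range _

/-- Union bound: if the prime factors of `b` have reciprocal sum `< 1`, then among any
`⌊ω(b) / (1 - s)⌋ + 1` consecutive integers one is coprime to `b`. -/
theorem union_bound (b : ℕ) (hb : 0 < b)
    (hs : (∑ p ∈ b.primeFactors, (1 : ℝ) / p) < 1) (y : ℤ) :
    ∃ t : ℕ, t < ⌊(b.primeFactors.card : ℝ) / (1 - ∑ p ∈ b.primeFactors, (1 : ℝ) / p)⌋₊ + 1 ∧
      IsCoprime (y + (t : ℤ)) (b : ℤ) := by
  classical
  set s : ℝ := ∑ p ∈ b.primeFactors, (1 : ℝ) / p with hs_def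
  set k : ℕ := b.primeFactors.card with hk_def
  set m : ℕ := ⌊(k : ℝ) / (1 - s)⌋₊ + 1 with hm_def
  by_contra hcon
  push Not at hcon
  have hcov : Finset.range m ⊆ b.primeFactors.biUnion
      (fun p => (Finset.range m).filter (fun t : ℕ => (p : ℤ) ∣ y + (t : ℤ))) := by
    intro t ht
    have htm : t < m := Finset.mem_range.mp ht
    obtain ⟨p, hp, hpd⟩ := exists_prime_dvd_of_not_isCoprime (y + (t : ℤ)) b hb (hcon t htm)
    exact Finset.mem_biUnion.mpr ⟨p, hp, Finset.mem_filter.mpr ⟨ht, hpd⟩⟩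
  have hcard : (m : ℝ) ≤ ∑ p ∈ b.primeFactors, ((m : ℝ) / p + 1) := by
    have h1 : m ≤ ∑ p ∈ b.primeFactors,
        ((Finset.range m).filter (fun t : ℕ => (p : ℤ) ∣ y + (t : ℤ))).card := by
      calc m = (Finset.range m).card := (Finset.card_range m).symm
        _ ≤ _ := Finset.card_le_card hcov
        _ ≤ _ := Finset.card_biUnion_le
    have h2 : ∀ p ∈ b.primeFactors,
        (((Finset.range m).filter (fun t : ℕ => (p : ℤ) ∣ y + (t : ℤ))).card : ℝ) ≤ (m : ℝ) / p + 1 := by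
      intro p hp
      have h3 := card_multiples_le y m p
      have h4 : (((m - 1) / p : ℕ) : ℝ) ≤ (m : ℝ) / p := by
        calc (((m - 1) / p : ℕ) : ℝ) ≤ ((m - 1 : ℕ) : ℝ) / p := Nat.cast_div_le
          _ ≤ (m : ℝ) / p := by
            apply div_le_div_of_nonneg_right _ (by positivity)
            exact_mod_cast Nat.sub_le m 1
      calc (((Finset.range m).filter (fun t : ℕ => (p : ℤ) ∣ y + (t : ℤ))).card : ℝ)
          ≤ (((m - 1) / p + 1 : ℕ) : ℝ) := by exact_mod_cast h3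
        _ = (((m - 1) / p : ℕ) : ℝ) + 1 := by push_cast; ring
        _ ≤ (m : ℝ) / p + 1 := by linarith
    calc (m : ℝ) ≤ ((∑ p ∈ b.primeFactors,
        ((Finset.range m).filter (fun t : ℕ => (p : ℤ) ∣ y + (t : ℤ))).card : ℕ) : ℝ) := by
          exact_mod_cast h1
      _ = ∑ p ∈ b.primeFactors,
        (((Finset.range m).filter (fun t : ℕ => (p : ℤ) ∣ y + (t : ℤ))).card : ℝ) := by
          push_cast; rfl
      _ ≤ ∑ p ∈ b.primeFactors, ((m : ℝ) / p + 1) := Finset.sum_le_sum h2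
  have hsum : ∑ p ∈ b.primeFactors, ((m : ℝ) / p + 1) = (m : ℝ) * s + k := by
    rw [Finset.sum_add_distrib, hs_def, Finset.mul_sum]
    simp only [Finset.sum_const, nsmul_eq_mul, mul_one]
    congr 1
    apply Finset.sum_congr rfl
    intro p _
    ring
  have h1s : 0 < 1 - s := by linarith
  have hle : (m : ℝ) ≤ (k : ℝ) / (1 - s) := by
    rw [le_div_iff₀ h1s]
    nlinarith [hcard, hsum]
  have hlt : (k : ℝ) / (1 - s) < (m : ℝ) := by
    have := Nat.lt_floor_add_one ((k : ℝ) / (1 - s))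
    rw [hm_def]
    push_cast
    exact this
  linarith

/-- Peeling: if among any `m` consecutive integers one is coprime to `b`, and `a` is coprime to `b`,
then among any `a * m` consecutive integers one is coprime to `a * b`. -/
theorem peel (a b m : ℕ) (ha : 0 < a) (hab : Nat.Coprime a b)
    (h : ∀ y : ℤ, ∃ t : ℕ, t < m ∧ IsCoprime (y + (t : ℤ)) (b : ℤ)) (x : ℤ) :
    ∃ i : ℕ, i < a * m ∧ IsCoprime (x + (i : ℤ)) ((a * b : ℕ) : ℤ) := by
  have hab' : IsCoprime (a : ℤ) (b : ℤ) := Nat.isCoprime_iff_coprime.mpr hab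
  obtain ⟨u, v, huv⟩ := hab'
  -- u * a + v * b = 1
  have haZ : (0 : ℤ) < (a : ℤ) := by exact_mod_cast ha
  set i0 : ℕ := ((1 - x) % (a : ℤ)).toNat with hi0
  have hi0nn : 0 ≤ (1 - x) % (a : ℤ) := Int.emod_nonneg _ haZ.ne'
  have hi0lt : (1 - x) % (a : ℤ) < a := Int.emod_lt_of_pos _ haZ
  have hi0cast : (i0 : ℤ) = (1 - x) % (a : ℤ) := by
    rw [hi0]; exact Int.toNat_of_nonneg hi0nn
  have hi0a : i0 < a := by
    have : (i0 : ℤ) < a := by rw [hi0cast]; exact hi0lt
    exact_mod_cast this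
  set c : ℤ := x + (i0 : ℤ) with hc
  have hc1 : ∃ w : ℤ, c = 1 + (a : ℤ) * w := by
    refine ⟨-((1 - x) / (a : ℤ)), ?_⟩
    have := Int.emod_add_mul_ediv (1 - x) (a : ℤ)
    rw [hc, hi0cast]
    linarith
  obtain ⟨w, hw⟩ := hc1
  have hca : IsCoprime c (a : ℤ) := by
    refine ⟨1, -w, ?_⟩
    rw [hw]; ring
  obtain ⟨t, htm, htc⟩ := h (u * c)
  refine ⟨i0 + a * t, ?_, ?_⟩
  · have : a * t + a ≤ a * m := by
      have : t + 1 ≤ m := htm
      calc a * t + a = a * (t + 1) := by ring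
        _ ≤ a * m := Nat.mul_le_mul_left a this
    omega
  · have hmain : IsCoprime (c + (a : ℤ) * (t : ℤ)) (b : ℤ) := by
      have h1 : IsCoprime ((a : ℤ) * (u * c + (t : ℤ))) (b : ℤ) :=
        IsCoprime.mul_left ⟨u, v, huv⟩ htc
      have h2 : (a : ℤ) * (u * c + (t : ℤ)) = (c + (a : ℤ) * (t : ℤ)) + (b : ℤ) * (-(v * c)) := by
        have : u * (a : ℤ) = 1 - v * (b : ℤ) := by linarith
        calc (a : ℤ) * (u * c + (t : ℤ)) = (u * (a : ℤ)) * c + (a : ℤ) * (t : ℤ) := by ring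
          _ = (1 - v * (b : ℤ)) * c + (a : ℤ) * (t : ℤ) := by rw [this]
          _ = (c + (a : ℤ) * (t : ℤ)) + (b : ℤ) * (-(v * c)) := by ring
      rw [h2] at h1
      exact (IsCoprime.add_mul_left_left_iff).mp h1
    have hmain2 : IsCoprime (c + (a : ℤ) * (t : ℤ)) (a : ℤ) :=
      (IsCoprime.add_mul_left_left_iff).mpr hca
    have hfin : IsCoprime (c + (a : ℤ) * (t : ℤ)) ((a : ℤ) * (b : ℤ)) :=
      IsCoprime.mul_right hmain2 hmain
    have hcast : x + ((i0 + a * t : ℕ) : ℤ) = c + (a : ℤ) * (t : ℤ) := by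
      rw [hc]; push_cast; ring
    rw [hcast]
    push_cast
    exact hfin

/-- Peeled union bound. -/
theorem peel_bound (a b : ℕ) (ha : 0 < a) (hb : 0 < b) (hab : Nat.Coprime a b)
    (hs : (∑ p ∈ b.primeFactors, (1 : ℝ) / p) < 1) (x : ℤ) :
    ∃ i : ℕ,
      i < a * (⌊(b.primeFactors.card : ℝ) / (1 - ∑ p ∈ b.primeFactors, (1 : ℝ) / p)⌋₊ + 1) ∧
      IsCoprime (x + (i : ℤ)) ((a * b : ℕ) : ℤ) :=
  peel a b _ ha hab (fun y => union_bound b hb hs y) x

end Vale.Agent.Lib.P013
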